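import Vale.Agent.P039.Bz.Stmt
import Vale.Agent.P039.H545.Four
import Vale.Agent.P039.H788.Det

/-! The abstract part of the project: STEP 3 and STEP 4 give `AbsStmt`. -/

namespace Vale.Agent.P039.H550

open Vale.Agent.P039

section

variable {B V : Type} {F : B → Fin 3 → Option V}

theorem mat_of_bz {f : B → Fin 3} (h : Bz.Mat F f) : H545.Mat F f := by
  obtain ⟨φ, hφ⟩ := h
  refine ⟨fun b => by rw [hφ b]; exact Option.some_ne_none _, fun b b' e => ?_⟩
  rw [hφ b, hφ b'] at e
  exact φ.injective (Option.some.inj e)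

theorem bz_of_mat [Fintype B] [Fintype V] (hcard : Fintype.card B = Fintype.card V)
    {f : B → Fin 3} (h : H545.Mat F f) : Bz.Mat F f := by
  have hv : ∀ b, ∃ v, F b (f b) = some v := fun b => Option.ne_none_iff_exists'.1 (h.1 b)
  choose v hv using hv
  have hinj : Function.Injective v := fun b b' e => h.2 b b' (by rw [hv b, hv b', e])
  exact ⟨Equiv.ofBijective v ((Fintype.bijective_iff_injective_and_card v).2 ⟨hinj, hcard⟩),
    fun b => by rw [hv b]; rfl⟩

theorem eps_eq {d : Fin 3} (hd : d ≠ 0) : H545.eps d = Bz.eps d := by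
  revert hd; revert d; decide

theorem eps_eq' (d : Fin 3) : Vale.P039.H788.eps d = Bz.eps d := by
  revert d; decide

theorem sub_ne {f g : B → Fin 3} (hd : H545.Disj f g) (b : B) : g b - f b ≠ 0 :=
  sub_ne_zero.2 (hd b).symm

end

theorem absStmt : Bz.AbsStmt := by
  classical
  intro B V _ _ _ _ F cl hcl hCyc hex
  obtain ⟨u, hu⟩ := hCyc
  obtain ⟨f0, g0, hf0, hg0, hd0⟩ := hex
  have hcard : Fintype.card B = Fintype.card V := by
    obtain ⟨φ, -⟩ := hf0
    exact Fintype.card_congr φ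
  have h4 := H545.four F u (by
    intro f g hf hg hd C hC
    obtain ⟨φ, hφ⟩ := bz_of_mat hcard hf
    obtain ⟨ψ, hψ⟩ := bz_of_mat hcard hg
    obtain ⟨⟨b1, hb1⟩, hinv, hmin⟩ := hC
    have hstep : ∀ b, F b (f b) = F ((φ.trans ψ.symm) b) (g ((φ.trans ψ.symm) b)) := by
      intro b
      rw [hφ b, hψ]
      simp
    have hstep' : ∀ b b', F b (f b) = F b' (g b') → b' = (φ.trans ψ.symm) b := by
      intro b b' e
      rw [hφ b, hψ b'] at e
      rw [Equiv.trans_apply, Equiv.eq_symm_apply]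
      exact (Option.some.inj e).symm
    have hC : ∀ b, b ∈ C ↔ Equiv.Perm.SameCycle (φ.trans ψ.symm) b1 b := by
      intro b
      constructor
      · intro hb
        have hY : (C.filter fun b => Equiv.Perm.SameCycle (φ.trans ψ.symm) b1 b) = C := by
          apply hmin _ (Finset.filter_subset _ _)
            ⟨b1, Finset.mem_filter.2 ⟨hb1, Equiv.Perm.SameCycle.refl _ _⟩⟩
          intro x y e
          have hy := hstep' x y e
          rw [Finset.mem_filter, Finset.mem_filter, hinv x y e, hy,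
            Equiv.Perm.sameCycle_apply_right]
        rw [← hY] at hb
        exact (Finset.mem_filter.1 hb).2
      · intro hb
        obtain ⟨n, -, hn⟩ := hb.exists_pow_eq'
        have : ∀ n : ℕ, ((φ.trans ψ.symm : Equiv.Perm B) ^ n) b1 ∈ C := by
          intro n
          induction n with
          | zero => simpa using hb1
          | succ n ih =>
            rw [pow_succ', Equiv.Perm.mul_apply]
            exact (hinv _ _ (hstep _)).1 ih
        rw [← hn]
        exact this n
    obtain ⟨m, hm, hpos⟩ := hu f g φ ψ hφ hψ hd C b1 hC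
    refine ⟨⟨m + 1, by omega⟩, ?_⟩
    have h1 : (C.card + 1) / 2 = m + 2 := by omega
    rw [h1, pow_add]
    have h2 : ∏ b ∈ C, H545.eps (g b - f b) = ∏ b ∈ C, Bz.eps (g b - f b) :=
      Finset.prod_congr rfl fun b _ => eps_eq (sub_ne hd b)
    rw [h2]
    simpa using hpos) ⟨f0, g0, mat_of_bz hf0, mat_of_bz hg0, hd0⟩
  obtain ⟨f, hf, hsum⟩ := h4
  obtain ⟨φ, hφ⟩ := bz_of_mat hcard hf
  refine ⟨f, ⟨φ, hφ⟩, ?_⟩
  have hsum' : ∑ g ∈ Finset.univ.filter (Vale.P039.H788.IsMat F),
      ∏ b, Vale.P039.H788.eps (g b - f b) ≠ 0 := by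
    have h1 : ∑ g ∈ Finset.univ.filter (Vale.P039.H788.IsMat F),
        ∏ b, Vale.P039.H788.eps (g b - f b) =
        ∑ g ∈ Finset.univ.filter (fun g => H545.Mat F g ∧ H545.Disj f g), H545.sg f g := by
      symm
      apply Finset.sum_subset_zero_on_sdiff
      · intro g hg
        obtain ⟨-, hg, -⟩ := Finset.mem_filter.1 hg
        exact Finset.mem_filter.2 ⟨Finset.mem_univ _, bz_of_mat hcard hg⟩
      · intro g hg
        obtain ⟨hg1, hg2⟩ := Finset.mem_sdiff.1 hg
        obtain ⟨-, hg1⟩ := Finset.mem_filter.1 hg1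
        have hnd : ¬ H545.Disj f g := fun h => hg2 (Finset.mem_filter.2
          ⟨Finset.mem_univ _, mat_of_bz hg1, h⟩)
        simp only [H545.Disj, not_forall, not_not] at hnd
        obtain ⟨b, hb⟩ := hnd
        apply Finset.prod_eq_zero (Finset.mem_univ b)
        rw [hb, sub_self]
        rfl
      · intro g hg
        obtain ⟨-, -, hd⟩ := Finset.mem_filter.1 hg
        refine Finset.prod_congr rfl fun b _ => ?_
        rw [eps_eq (sub_ne hd b), eps_eq']
    rw [h1]
    exact hsum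
  intro K hK
  obtain ⟨b, hb⟩ := Vale.P039.H788.step3 (cl := cl) (fun b c v h => hcl b c v h) hφ (by
    intro g ψ hψ hne c hc
    have hd : Bz.Disj f g := fun b => (hne b).symm
    obtain ⟨hcyc, hceq⟩ := Equiv.Perm.mem_cycleFactorsFinset_iff.1 hc
    obtain ⟨b1, hb1⟩ := hcyc.nonempty_support
    have hc' : c = Equiv.Perm.cycleOf (φ.trans ψ.symm) b1 :=
      Equiv.Perm.cycle_is_cycleOf hb1 hc
    obtain ⟨m, hm, -⟩ := hu f g φ ψ hφ hψ hd c.support b1 (by
      intro b
      have hb1' : b1 ∈ Equiv.Perm.support (φ.trans ψ.symm : Equiv.Perm B) :=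
        Equiv.Perm.mem_cycleFactorsFinset_support_le hc hb1
      rw [hc', Equiv.Perm.mem_support_cycleOf_iff]
      exact ⟨fun h => h.1, fun h => ⟨h, hb1'⟩⟩)
    exact ⟨m + 1, by omega⟩) hsum' hK
  have hn1 : f b + 1 ≠ f b := by generalize f b = x; revert x; decide
  have hn2 : f b + 2 ≠ f b := by generalize f b = x; revert x; decide
  by_cases h1 : ∃ v ∈ K, F b (f b + 1) = some v
  · refine ⟨b, f b + 1, f b + 2, hn1, hn2, h1, fun v hv h2 => hb ?_⟩
    exact ⟨fun _ => ⟨v, hv, h2⟩, fun _ => h1⟩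
  · by_cases h2 : ∃ v ∈ K, F b (f b + 2) = some v
    · exact ⟨b, f b + 2, f b + 1, hn2, hn1, h2, fun v hv h3 => h1 ⟨v, hv, h3⟩⟩
    · exact absurd ⟨fun h => absurd h h1, fun h => absurd h h2⟩ hb

end Vale.Agent.P039.H550
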