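import Mathlib.Algebra.BigOperators.Fin
import Mathlib.Data.Fintype.Pi
import Mathlib.Data.Fintype.BigOperators
import Mathlib.Logic.Relation
import Mathlib.Data.ZMod.Basic

/-! Matchings of the corner graph, abstractly. `B` = the black triangles other than the root,
`V` = the vertices other than the three vertices of the root, `F b c` = the vertex of class `c` at
the black triangle `b`, `none` if it is a vertex of the root. -/

namespace Vale.Agent.P039.H550

variable {B V : Type}

/-- The choice `f` of one corner at every black triangle is a perfect matching. -/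
def IsMat (F : B → Fin 3 → Option V) (f : B → Fin 3) (e : B ≃ V) : Prop :=
  ∀ b, F b (f b) = some (e b)

/-- Two choices differ everywhere. -/
def Disj (f g : B → Fin 3) : Prop := ∀ b, f b ≠ g b

/-- `eps 1 = 1`, `eps 2 = -1`. -/
def eps (d : Fin 3) : ℤ := if d = 1 then 1 else -1

/-- The sign of a pair of choices. -/
def sg [Fintype B] (f g : B → Fin 3) : ℤ := ∏ b, eps (g b - f b)

/-- One step in the graph `J - f` with the three root vertices merged to `none`. -/
def Adj (F : B → Fin 3 → Option V) (f : B → Fin 3) (x y : Option V) : Prop :=
  ∃ b c c', c ≠ f b ∧ c' ≠ f b ∧ F b c = x ∧ F b c' = y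

/-- `f` is good: the graph `J - f` is connected. -/
def Good (F : B → Fin 3 → Option V) (f : B → Fin 3) : Prop :=
  ∀ x : Option V, Relation.EqvGen (Adj F f) none x

end Vale.Agent.P039.H550
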