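import Vale.Agent.P039.H550.Bas
import Mathlib.GroupTheory.Perm.Cycle.Basic
import Mathlib.Algebra.BigOperators.Group.Finset.Basic
import Mathlib.Tactic.FinCases

/-! If `f` is bad then the signs of the pairs `(f, g)` cancel. -/

namespace Vale.Agent.P039.H550

variable {B V : Type}

/-- the third class -/
def third (i j : Fin 3) : Fin 3 := -(i + j)

theorem third_ne_left : ∀ i j : Fin 3, i ≠ j → third i j ≠ i := by decide
theorem third_ne_right : ∀ i j : Fin 3, i ≠ j → third i j ≠ j := by decide
theorem third_third : ∀ i j : Fin 3, i ≠ j → third i (third i j) = j := by decide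
theorem eq_third : ∀ i j k : Fin 3, i ≠ j → k ≠ i → k ≠ j → k = third i j := by decide
theorem eps_third : ∀ i j : Fin 3, i ≠ j → eps (third i j - i) = - eps (j - i) := by decide

section

variable [DecidableEq B]

/-- the choice `g` reversed on `Z` -/
def flip (f : B → Fin 3) (Z : Finset B) (g : B → Fin 3) : B → Fin 3 :=
  fun b => if b ∈ Z then third (f b) (g b) else g b

theorem flip_flip {f g : B → Fin 3} (hd : Disj f g) (Z : Finset B) :
    flip f Z (flip f Z g) = g := by
  funext b
  by_cases h : b ∈ Z
  · simp only [flip, h, if_true]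
    exact third_third _ _ (hd b)
  · simp only [flip, h, if_false]

theorem flip_disj {f g : B → Fin 3} (hd : Disj f g) (Z : Finset B) : Disj f (flip f Z g) := by
  intro b
  by_cases h : b ∈ Z
  · simp only [flip, h, if_true]
    exact (third_ne_left _ _ (hd b)).symm
  · simp only [flip, h, if_false]
    exact hd b

theorem flip_ne {f g : B → Fin 3} (hd : Disj f g) {Z : Finset B} (hZ : Z.Nonempty) :
    flip f Z g ≠ g := by
  obtain ⟨b, hb⟩ := hZ
  intro h
  have := congrFun h b
  simp only [flip, hb, if_true] at this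
  exact third_ne_right _ _ (hd b) this

theorem sg_flip [Fintype B] {f g : B → Fin 3} (hd : Disj f g) (Z : Finset B) :
    sg f (flip f Z g) = (-1) ^ Z.card * sg f g := by
  have h1 : ∀ b, eps (flip f Z g b - f b) = (if b ∈ Z then (-1) else 1) * eps (g b - f b) := by
    intro b
    by_cases h : b ∈ Z
    · simp only [flip, h, if_true]
      rw [eps_third _ _ (hd b)]
      ring
    · simp only [flip, h, if_false, one_mul]
  unfold sg
  rw [Finset.prod_congr rfl (fun b _ => h1 b), Finset.prod_mul_distrib, Finset.prod_ite,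
    Finset.prod_const, Finset.prod_const_one, mul_one]
  congr 3
  ext b
  simp

/-- A minimal non-empty invariant set of a self-map of a finite set, as a permutation. -/
theorem exists_cycle [Fintype B] (t : B → B) (E : Finset B) (hE : E.Nonempty) (hinv : ∀ b ∈ E, t b ∈ E) :
    ∃ (Z : Finset B) (s : Equiv.Perm B), Z.Nonempty ∧ Z ⊆ E ∧ (∀ b ∈ Z, s b = t b) ∧
      (∀ b ∈ Z, s b ∈ Z) ∧ (∀ b, b ∉ Z → s b = b) ∧
      (∀ Y ⊆ Z, Y.Nonempty → (∀ b ∈ Y, t b ∈ Y) → Y = Z) := by
  classical
  -- minimal set
  have hex : ∃ n, ∃ Z : Finset B, Z.card = n ∧ Z.Nonempty ∧ Z ⊆ E ∧ ∀ b ∈ Z, t b ∈ Z :=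
    ⟨E.card, E, rfl, hE, Finset.Subset.refl _, hinv⟩
  obtain ⟨Z, hcard, hZne, hZE, hZinv⟩ := Nat.find_spec hex
  have hmin : ∀ Y ⊆ Z, Y.Nonempty → (∀ b ∈ Y, t b ∈ Y) → Y = Z := by
    intro Y hY hYne hYinv
    apply Finset.eq_of_subset_of_card_le hY
    rw [hcard]
    exact Nat.find_min' hex ⟨Y, rfl, hYne, hY.trans hZE, hYinv⟩
  have himg : Z.image t = Z := by
    apply hmin
    · intro b hb
      obtain ⟨a, ha, rfl⟩ := Finset.mem_image.1 hb
      exact hZinv a ha
    · exact hZne.image t
    · intro b hb
      obtain ⟨a, ha, rfl⟩ := Finset.mem_image.1 hb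
      exact Finset.mem_image_of_mem _ (hZinv a ha)
  have hinj : Set.InjOn t Z := by
    apply Finset.card_image_iff.1
    rw [himg]
  let r : B → B := fun b => if b ∈ Z then t b else b
  have hr : Function.Injective r := by
    intro x y hxy
    by_cases hx : x ∈ Z <;> by_cases hy : y ∈ Z
    · simp only [r, hx, hy, if_true] at hxy
      exact hinj hx hy hxy
    · simp only [r, hx, hy, if_true, if_false] at hxy
      exact absurd (hxy ▸ hZinv x hx) hy
    · simp only [r, hx, hy, if_true, if_false] at hxy
      exact absurd (hxy ▸ hZinv y hy) hx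
    · simpa only [r, hx, hy, if_false] using hxy
  let s : Equiv.Perm B := Equiv.ofBijective r (Finite.injective_iff_bijective.1 hr)
  have hs : ∀ b, s b = r b := fun b => rfl
  refine ⟨Z, s, hZne, hZE, ?_, ?_, ?_, hmin⟩
  · intro b hb
    rw [hs]
    simp only [r, hb, if_true]
  · intro b hb
    rw [hs]
    simp only [r, hb, if_true]
    exact hZinv b hb
  · intro b hb
    rw [hs]
    simp only [r, hb, if_false]

end

section

/-- The odd cycle hypothesis: if two matchings differ at `b₁` then the cycle of their union through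
`b₁` has an odd number of black triangles. -/
def OddCycles (F : B → Fin 3 → Option V) : Prop :=
  ∀ (g g' : B → Fin 3) (e e' : B ≃ V), IsMat F g e → IsMat F g' e' → ∀ b₁, g b₁ ≠ g' b₁ →
    ∀ C : Finset B, (∀ b, b ∈ C ↔ Equiv.Perm.SameCycle (e.trans e'.symm) b₁ b) → Odd C.card

theorem eqvGen_of_mat {F : B → Fin 3 → Option V} {f g : B → Fin 3} {e : B ≃ V}
    (hg : IsMat F g e) (hd : Disj f g) (b : B) (x : Option V)
    (hx : F b (third (f b) (g b)) = x) : Relation.EqvGen (Adj F f) (some (e b)) x :=
  Relation.EqvGen.rel _ _ ⟨b, g b, third (f b) (g b), (hd b).symm, third_ne_left _ _ (hd b),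
    hg b, hx⟩

/-- STEP 3: the signed number of the partners of a bad choice is zero. -/
theorem bad_cancel [Fintype B] (F : B → Fin 3 → Option V) (hodd : OddCycles F) (f : B → Fin 3)
    (hbad : ¬ Good F f) (S : Finset (B → Fin 3))
    (hS : ∀ g, g ∈ S ↔ (∃ e : B ≃ V, IsMat F g e) ∧ Disj f g) :
    ∑ g ∈ S, sg f g = 0 := by
  classical
  rcases S.eq_empty_or_nonempty with rfl | ⟨g0, hg0⟩
  · simp
  obtain ⟨⟨e0, he0⟩, hd0⟩ := (hS g0).1 hg0
  -- a vertex not connected to the root
  simp only [Good, not_forall] at hbad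
  obtain ⟨x0, hx0⟩ := hbad
  -- the step
  let t : B → B := fun b => match F b (third (f b) (g0 b)) with
    | some v => e0.symm v
    | none => b
  have ht : ∀ b v, F b (third (f b) (g0 b)) = some v → t b = e0.symm v := by
    intro b v h
    simp only [t, h]
  let E : Finset B := Finset.univ.filter fun b => ¬ Relation.EqvGen (Adj F f) none (some (e0 b))
  have hE' : ∀ b, b ∈ E ↔ ¬ Relation.EqvGen (Adj F f) none (some (e0 b)) := by
    intro b
    simp [E]
  have htail : ∀ b ∈ E, ∃ v, F b (third (f b) (g0 b)) = some v := by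
    intro b hb
    rcases hF : F b (third (f b) (g0 b)) with _ | v
    · exact absurd ((eqvGen_of_mat he0 hd0 b none hF).symm) ((hE' b).1 hb)
    · exact ⟨v, rfl⟩
  have hEne : E.Nonempty := by
    rcases x0 with _ | v
    · exact absurd (Relation.EqvGen.refl _) hx0
    · refine ⟨e0.symm v, (hE' _).2 ?_⟩
      rw [Equiv.apply_symm_apply]
      exact hx0
  have hEinv : ∀ b ∈ E, t b ∈ E := by
    intro b hb
    obtain ⟨v, hv⟩ := htail b hb
    rw [ht b v hv, hE', Equiv.apply_symm_apply]
    intro h
    exact (hE' b).1 hb (h.trans _ _ _ ((eqvGen_of_mat he0 hd0 b _ hv).symm))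
  obtain ⟨Z, s, hZne, hZE, hst, hsZ, hsout, hmin⟩ := exists_cycle t E hEne hEinv
  -- the reversed choice
  have hthird : ∀ b ∈ Z, F b (third (f b) (g0 b)) = some (e0 (s b)) := by
    intro b hb
    obtain ⟨v, hv⟩ := htail b (hZE hb)
    rw [hst b hb, ht b v hv, Equiv.apply_symm_apply]
    exact hv
  have hsZ' : ∀ b ∈ Z, s.symm b ∈ Z := by
    intro b hb
    by_contra h
    have h1 := hsout _ h
    rw [Equiv.apply_symm_apply] at h1
    rw [← h1] at h
    exact h hb
  -- every other matching agrees with `g0` on `Z` or is reversed on `Z`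
  have hdich : ∀ g (e : B ≃ V), IsMat F g e → Disj f g →
      (∀ b ∈ Z, g b = g0 b) ∨ (∀ b ∈ Z, g b ≠ g0 b) := by
    intro g e he hd
    by_contra hcon
    push Not at hcon
    obtain ⟨⟨b1, hb1, hne⟩, ⟨b2, hb2, heq⟩⟩ := hcon
    have hY : (Z.filter fun b => g b ≠ g0 b) = Z := by
      apply hmin _ (Finset.filter_subset _ _) ⟨b1, Finset.mem_filter.2 ⟨hb1, hne⟩⟩
      intro b hb
      obtain ⟨hbZ, hbne⟩ := Finset.mem_filter.1 hb
      have h3 : g b = third (f b) (g0 b) := eq_third _ _ _ (hd0 b) (hd b).symm hbne
      have h4 : e b = e0 (s b) := by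
        have h5 := he b
        rw [h3, hthird b hbZ] at h5
        exact (Option.some.inj h5).symm
      rw [← hst b hbZ]
      refine Finset.mem_filter.2 ⟨hsZ b hbZ, ?_⟩
      intro h6
      -- `g = g0` at `s b`
      have h7 : e (s b) = e0 (s b) := by
        have h8 := he (s b)
        rw [h6, he0 (s b)] at h8
        exact (Option.some.inj h8).symm
      have h9 : s b = b := e.injective (h7.trans h4.symm)
      rw [h9] at h6
      exact hbne h6
    rw [← hY] at hb2
    exact (Finset.mem_filter.1 hb2).2 heq
  -- the reversed choice is a matching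
  have hflip : ∀ g (e : B ≃ V), IsMat F g e → Disj f g → ∃ e', IsMat F (flip f Z g) e' := by
    intro g e he hd
    rcases hdich g e he hd with h | h
    · refine ⟨s.trans e, fun b => ?_⟩
      have heq : ∀ b ∈ Z, e b = e0 b := by
        intro b hb
        have h5 := he b
        rw [h b hb, he0 b] at h5
        exact (Option.some.inj h5).symm
      by_cases hb : b ∈ Z
      · simp only [flip, hb, if_true, Equiv.trans_apply]
        rw [h b hb, hthird b hb, heq _ (hsZ b hb)]
      · simp only [flip, hb, if_false, Equiv.trans_apply]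
        rw [hsout b hb]
        exact he b
    · refine ⟨s.symm.trans e, fun b => ?_⟩
      have h3 : ∀ b ∈ Z, g b = third (f b) (g0 b) := fun b hb =>
        eq_third _ _ _ (hd0 b) (hd b).symm (h b hb)
      have h4 : ∀ b ∈ Z, e b = e0 (s b) := by
        intro b hb
        have h5 := he b
        rw [h3 b hb, hthird b hb] at h5
        exact (Option.some.inj h5).symm
      by_cases hb : b ∈ Z
      · simp only [flip, hb, if_true, Equiv.trans_apply]
        rw [h3 b hb, third_third _ _ (hd0 b), he0 b, h4 _ (hsZ' b hb), Equiv.apply_symm_apply]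
      · simp only [flip, hb, if_false, Equiv.trans_apply]
        have h6 : s.symm b = b := by
          rw [Equiv.symm_apply_eq, hsout b hb]
        rw [h6]
        exact he b
  -- the number of elements of `Z` is odd
  have hZodd : Odd Z.card := by
    obtain ⟨b1, hb1⟩ := hZne
    have he1 : IsMat F (flip f Z g0) (s.trans e0) := by
      intro b
      by_cases hb : b ∈ Z
      · simp only [flip, hb, if_true, Equiv.trans_apply]
        exact hthird b hb
      · simp only [flip, hb, if_false, Equiv.trans_apply]
        rw [hsout b hb]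
        exact he0 b
    refine hodd _ _ _ _ he1 he0 b1 ?_ Z ?_
    · simp only [flip, hb1, if_true]
      exact third_ne_right _ _ (hd0 b1)
    · have hcomp : (s.trans e0).trans e0.symm = s := by
        ext b
        simp
      rw [hcomp]
      intro b
      constructor
      · intro hb
        have hY : (Z.filter fun b => s.SameCycle b1 b) = Z := by
          apply hmin _ (Finset.filter_subset _ _)
            ⟨b1, Finset.mem_filter.2 ⟨hb1, Equiv.Perm.SameCycle.refl _ _⟩⟩
          intro a ha
          obtain ⟨haZ, ha1⟩ := Finset.mem_filter.1 ha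
          rw [← hst a haZ]
          exact Finset.mem_filter.2 ⟨hsZ a haZ, Equiv.Perm.sameCycle_apply_right.2 ha1⟩
        rw [← hY] at hb
        exact (Finset.mem_filter.1 hb).2
      · intro hb
        obtain ⟨n, -, hn⟩ := hb.exists_pow_eq'
        have : ∀ n : ℕ, (s ^ n) b1 ∈ Z := by
          intro n
          induction n with
          | zero => simpa using hb1
          | succ n ih =>
            rw [pow_succ', Equiv.Perm.mul_apply]
            exact hsZ _ ih
        rw [← hn]
        exact this n
  -- the involution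
  refine Finset.sum_involution (fun g _ => flip f Z g) ?_ ?_ ?_ ?_
  · intro g hg
    obtain ⟨⟨e, he⟩, hd⟩ := (hS g).1 hg
    rw [sg_flip hd, hZodd.neg_one_pow]
    ring
  · intro g hg _
    obtain ⟨⟨e, he⟩, hd⟩ := (hS g).1 hg
    exact flip_ne hd hZne
  · intro g hg
    obtain ⟨⟨e, he⟩, hd⟩ := (hS g).1 hg
    exact (hS _).2 ⟨hflip g e he hd, flip_disj hd Z⟩
  · intro g hg
    obtain ⟨⟨e, he⟩, hd⟩ := (hS g).1 hg
    exact flip_flip hd Z

end

end Vale.Agent.P039.H550
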